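import Mathlib

/-! Counting lemmas for random signs: determined coordinates and the Littlewood-Offord bound. -/

namespace Vale.Agent.P160

open Finset

/-- A sign. -/
def sgn (b : Bool) : ℝ := if b then 1 else -1

theorem sgn_injective : Function.Injective sgn := by
  intro a b h
  cases a <;> cases b <;> norm_num [sgn] at h <;> rfl

theorem sgn_ne_zero (b : Bool) : sgn b ≠ 0 := by cases b <;> norm_num [sgn]

/-- If the coordinates in `K` take at most `M` values once the others are fixed. -/
theorem card_mul_two_pow_le {ι : Type*} [Fintype ι] [DecidableEq ι] (E : Finset (ι → Bool))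
    (K : Finset ι) (M : ℕ)
    (h : ∀ ω₀ ∈ E, (E.filter fun ω => ∀ e, e ∉ K → ω e = ω₀ e).card ≤ M) :
    E.card * 2 ^ K.card ≤ M * 2 ^ Fintype.card ι := by
  classical
  have h1 : E.card ≤ M * 2 ^ (Kᶜ).card := by
    set φ : (ι → Bool) → ((Kᶜ : Finset ι) → Bool) := fun ω e => ω e with hφ
    refine (card_le_mul_card_image (f := φ) E M ?_).trans (Nat.mul_le_mul_left _ ?_)
    · intro b hb
      obtain ⟨ω₀, hω₀, rfl⟩ := mem_image.1 hb
      refine le_trans (card_le_card ?_) (h ω₀ hω₀)
      intro ω hω
      simp only [mem_filter] at hω ⊢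
      exact ⟨hω.1, fun e he => congrFun hω.2 ⟨e, mem_compl.2 he⟩⟩
    · refine (card_le_univ _).trans ?_
      rw [Fintype.card_fun, Fintype.card_bool, Fintype.card_coe]
  calc E.card * 2 ^ K.card ≤ M * 2 ^ (Kᶜ).card * 2 ^ K.card := Nat.mul_le_mul_right _ h1
    _ = M * 2 ^ Fintype.card ι := by rw [mul_assoc, ← pow_add, card_compl_add_card]

/-- Determined coordinates. -/
theorem card_mul_two_pow_le_one {ι : Type*} [Fintype ι] [DecidableEq ι] (E : Finset (ι → Bool))
    (K : Finset ι)
    (h : ∀ ω ∈ E, ∀ ω' ∈ E, (∀ e, e ∉ K → ω e = ω' e) → ω = ω') :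
    E.card * 2 ^ K.card ≤ 2 ^ Fintype.card ι := by
  refine (card_mul_two_pow_le E K 1 fun ω₀ hω₀ => card_le_one.2 ?_).trans (one_mul _).le
  intro a ha b hb
  simp only [mem_filter] at ha hb
  exact h a ha.1 b hb.1 fun e he => (ha.2 e he).trans (hb.2 e he).symm

/-- Littlewood-Offord: a fixed linear form with nonzero coefficients vanishes on few sign
vectors. -/
theorem littlewood_offord {α : Type*} [Fintype α] [DecidableEq α] (v : α → ℝ)
    (hv : ∀ i, v i ≠ 0) :
    ((univ : Finset (α → Bool)).filter fun x => ∑ i, sgn (x i) * v i = 0).card ≤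
      (Fintype.card α).choose (Fintype.card α / 2) := by
  classical
  set Φ : (α → Bool) → Finset α := fun x => univ.filter fun i => x i = decide (0 < v i) with hΦ
  have hval : ∀ x : α → Bool, ∑ i, sgn (x i) * v i = 2 * ∑ i ∈ Φ x, |v i| - ∑ i, |v i| := by
    intro x
    rw [hΦ, sum_filter, mul_sum, ← sum_sub_distrib]
    refine sum_congr rfl fun i _ => ?_
    rcases lt_or_gt_of_ne (hv i) with h | h
    · cases x i <;> simp [sgn, abs_of_neg h, not_lt.2 h.le] <;> ring
    · cases x i <;> simp [sgn, abs_of_pos h, h] <;> ring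
  have hinj : Function.Injective Φ := by
    intro x y h
    funext i
    have := Finset.ext_iff.1 h i
    simp only [hΦ, mem_filter, mem_univ, true_and] at this
    revert this
    cases x i <;> cases y i <;> cases decide (0 < v i) <;> simp
  rw [← card_image_of_injective _ hinj]
  refine IsAntichain.sperner ?_
  intro F hF G hG hne hsub
  simp only [coe_image, Set.mem_image, coe_filter, mem_univ, true_and, Set.mem_ofPred_eq] at hF hG
  obtain ⟨x, hx, rfl⟩ := hF
  obtain ⟨y, hy, rfl⟩ := hG
  have hss : Φ x ⊂ Φ y := hsub.ssubset_of_ne hne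
  obtain ⟨i, hiy, hix⟩ := exists_of_ssubset hss
  have hlt : ∑ i ∈ Φ x, |v i| < ∑ i ∈ Φ y, |v i| :=
    sum_lt_sum_of_subset hsub hiy hix (abs_pos.2 (hv i)) fun j _ _ => abs_nonneg _
  have e1 := hval x
  have e2 := hval y
  linarith

/-- The middle binomial coefficient is at most three eighths of all. -/
theorem choose_middle_le : ∀ k, 3 ≤ k → 8 * k.choose (k / 2) ≤ 3 * 2 ^ k := by
  intro k hk
  induction k, hk using Nat.le_induction with
  | base => decide
  | succ k hk ih =>
    have h1 : (k + 1).choose ((k + 1) / 2) ≤ 2 * k.choose (k / 2) := by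
      rcases Nat.eq_zero_or_pos ((k + 1) / 2) with h | h
      · rw [h, Nat.choose_zero_right]
        have := Nat.choose_pos (Nat.div_le_self k 2)
        omega
      · obtain ⟨r, hr⟩ := Nat.exists_eq_succ_of_ne_zero h.ne'
        rw [hr, Nat.choose_succ_succ']
        have a := Nat.choose_le_middle r k
        have b := Nat.choose_le_middle (r + 1) k
        omega
    rw [pow_succ]
    omega

theorem choose_two_mul_sq_le (j : ℕ) : (2 * j).choose j ^ 2 * (2 * j + 1) ≤ 16 ^ j := by
  induction j with
  | zero => simp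
  | succ j ih =>
    have h := Nat.succ_mul_centralBinom_succ j
    simp only [Nat.centralBinom_eq_two_mul_choose] at h
    refine Nat.le_of_mul_le_mul_left ?_ (show 0 < (j + 1) ^ 2 by positivity)
    calc (j + 1) ^ 2 * ((2 * (j + 1)).choose (j + 1) ^ 2 * (2 * (j + 1) + 1))
        = ((j + 1) * (2 * (j + 1)).choose (j + 1)) ^ 2 * (2 * j + 3) := by ring
      _ = 4 * ((2 * j + 1) * (2 * j + 3)) * ((2 * j).choose j ^ 2 * (2 * j + 1)) := by rw [h]; ring
      _ ≤ (16 * (j + 1) ^ 2) * 16 ^ j := Nat.mul_le_mul (by nlinarith) ih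
      _ = (j + 1) ^ 2 * 16 ^ (j + 1) := by ring

/-- The middle binomial coefficient decays like the inverse square root. -/
theorem choose_middle_sq_le (k : ℕ) : k.choose (k / 2) ^ 2 * k ≤ 4 * 4 ^ k := by
  rcases Nat.even_or_odd' k with ⟨j, rfl | rfl⟩
  · rw [Nat.mul_div_cancel_left j (by norm_num), pow_mul]
    have := choose_two_mul_sq_le j
    norm_num at this ⊢
    nlinarith
  · rw [show (2 * j + 1) / 2 = j by omega,
      show (4 : ℕ) ^ (2 * j + 1) = 4 * 16 ^ j by rw [pow_succ, pow_mul]; norm_num; ring]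
    have h1 : (2 * j + 1).choose j ≤ 2 * (2 * j).choose j := by
      rcases j with _ | i
      · simp
      · rw [Nat.choose_succ_succ']
        have := Nat.choose_le_middle i (2 * (i + 1))
        rw [Nat.mul_div_cancel_left (i + 1) (by norm_num)] at this
        omega
    have := choose_two_mul_sq_le j
    have h2 := Nat.pow_le_pow_left h1 2
    norm_num at this ⊢
    nlinarith

end Vale.Agent.P160
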