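import Vale.Agent.P160.Rate

/-! The limit of the sparse event and the reduction of the rate to spread vectors. -/

namespace Vale.Agent.P160

open Finset Filter
open scoped Classical Topology

variable {n : ℕ}

/-- The probability of a property of the signs. -/
noncomputable def pr (n : ℕ) (P : (Sym2 (Fin n) → Bool) → Prop) : ℝ :=
  (Nat.card {ω // P ω} : ℝ) / (2 : ℝ) ^ Fintype.card (Sym2 (Fin n))

theorem pr_eq (P : (Sym2 (Fin n) → Bool) → Prop) : pr n P = prob (univ.filter P) := by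
  rw [pr, prob, Nat.card_eq_fintype_card, Fintype.card_subtype]

/-- A kernel vector of small support. -/
def Sparse (ω : Sym2 (Fin n) → Bool) : Prop :=
  ∃ v : Fin n → ℝ, v ≠ 0 ∧ Nat.card {i // v i ≠ 0} + ⌈4 * (n : ℝ) / Real.log n⌉₊ ≤ n ∧
    (Matrix.of fun i j => if ω s(i, j) then (1 : ℝ) else -1).mulVec v = 0

theorem pr_sparse (n : ℕ) : pr n Sparse = prob (sparseEvent n (thr n)) := by
  rw [pr_eq, sparseEvent]
  congr 1
  refine filter_congr fun ω _ => ?_
  simp only [Sparse, Nat.card_eq_fintype_card, Fintype.card_subtype]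
  rfl

theorem sparse_bounds : ∀ᶠ n : ℕ in atTop,
    (1 / 2 : ℝ) ^ n ≤ pr n Sparse ∧ pr n Sparse ≤ 2 * (n : ℝ) ^ 2 * (1 / 2) ^ n := by
  filter_upwards [eventually_facts] with n ⟨h1, h2, h3, h4, h5⟩
  rw [pr_sparse]
  exact ⟨lower_bound h1, main_bound h1 h2 h3 h4 h5⟩

/-- Squeezing exponential rates. -/
theorem tendsto_root {f : ℕ → ℝ} (hf : ∀ᶠ n : ℕ in atTop, (1 / 2 : ℝ) ^ n ≤ f n)
    (hf' : ∀ ε > 0, ∀ᶠ n : ℕ in atTop, f n ≤ (1 / 2 + ε) ^ n) :
    Tendsto (fun n : ℕ => f n ^ ((n : ℝ)⁻¹)) atTop (𝓝 (1 / 2)) := by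
  rw [tendsto_order]
  constructor
  · intro a ha
    filter_upwards [hf, eventually_gt_atTop 0] with n hn hn0
    calc a < 1 / 2 := ha
      _ = ((1 / 2 : ℝ) ^ n) ^ ((n : ℝ)⁻¹) := (Real.pow_rpow_inv_natCast (by norm_num) hn0.ne').symm
      _ ≤ _ := Real.rpow_le_rpow (by positivity) hn (by positivity)
  · intro a ha
    filter_upwards [hf, hf' ((a - 1 / 2) / 2) (by linarith), eventually_gt_atTop 0] with n hn hn' hn0
    calc f n ^ ((n : ℝ)⁻¹) ≤ (((1 / 2 + (a - 1 / 2) / 2)) ^ n) ^ ((n : ℝ)⁻¹) :=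
          Real.rpow_le_rpow (le_trans (by positivity) hn) hn' (by positivity)
      _ = 1 / 2 + (a - 1 / 2) / 2 := Real.pow_rpow_inv_natCast (by linarith) hn0.ne'
      _ < a := by linarith

theorem sparse_le_eps : ∀ ε > 0, ∀ᶠ n : ℕ in atTop, pr n Sparse ≤ (1 / 2 + ε) ^ n := by
  intro ε hε
  have h := (tendsto_pow_const_div_const_pow_of_one_lt 2 (show (1 : ℝ) < 1 + 2 * ε by linarith))
  filter_upwards [sparse_bounds, h.eventually_le_const (show (0 : ℝ) < 1 / 2 by norm_num)]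
    with n hn hn'
  rw [div_le_iff₀ (by positivity)] at hn'
  calc pr n Sparse ≤ 2 * (n : ℝ) ^ 2 * (1 / 2) ^ n := hn.2
    _ ≤ (1 + 2 * ε) ^ n * (1 / 2) ^ n := by gcongr; linarith
    _ = _ := by rw [← mul_pow]; ring_nf

/-- The singular event. -/
def Singular (ω : Sym2 (Fin n) → Bool) : Prop :=
  (Matrix.of fun i j => if ω s(i, j) then (1 : ℝ) else -1).det = 0

theorem sparse_singular {ω : Sym2 (Fin n) → Bool} (h : Sparse ω) : Singular ω := by
  obtain ⟨v, hv, -, he⟩ := h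
  exact Matrix.exists_mulVec_eq_zero_iff.1 ⟨v, hv, he⟩

theorem pr_mono {P Q : (Sym2 (Fin n) → Bool) → Prop} (h : ∀ ω, P ω → Q ω) : pr n P ≤ pr n Q := by
  rw [pr_eq, pr_eq]
  exact prob_mono (monotone_filter_right _ fun ω _ => h ω)

theorem singular_le (n : ℕ) :
    pr n Singular ≤ pr n Sparse + pr n (fun ω => Singular ω ∧ ¬ Sparse ω) := by
  rw [pr_eq, pr_eq, pr_eq]
  refine le_trans (prob_mono ?_) (prob_union _ _)
  intro ω hω
  simp only [mem_filter, mem_univ, true_and, mem_union] at hω ⊢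
  tauto

theorem rate_iff_spread :
    Tendsto (fun n : ℕ => pr n Singular ^ ((n : ℝ)⁻¹)) atTop (𝓝 (1 / 2)) ↔
      ∀ ε > 0, ∀ᶠ n : ℕ in atTop,
        pr n (fun ω => Singular ω ∧ ¬ Sparse ω) ≤ (1 / 2 + ε) ^ n := by
  constructor
  · intro h ε hε
    filter_upwards [h.eventually (eventually_le_nhds (show (1 / 2 : ℝ) < 1 / 2 + ε by linarith)),
      eventually_gt_atTop 0] with n hn hn0
    have h0 : 0 ≤ pr n (Singular (n := n)) := by rw [pr]; positivity
    calc pr n (fun ω => Singular ω ∧ ¬ Sparse ω) ≤ pr n Singular := pr_mono fun ω h => h.1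
      _ = (pr n Singular ^ ((n : ℝ)⁻¹)) ^ n := (Real.rpow_inv_natCast_pow h0 hn0.ne').symm
      _ ≤ _ := pow_le_pow_left₀ (Real.rpow_nonneg h0 _) hn n
  · intro h
    refine tendsto_root ?_ fun ε hε => ?_
    · filter_upwards [sparse_bounds] with n hn
      exact hn.1.trans (pr_mono fun ω => sparse_singular)
    · have hgrow := (tendsto_pow_atTop_atTop_of_one_lt
        (show (1 : ℝ) < (1 / 2 + ε) / (1 / 2 + ε / 2) by
          rw [lt_div_iff₀ (by linarith)]; linarith)).eventually_ge_atTop 2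
      filter_upwards [h (ε / 2) (by linarith), sparse_le_eps (ε / 2) (by linarith), hgrow]
        with n h1 h2 h3
      rw [div_pow, le_div_iff₀ (by positivity)] at h3
      calc pr n Singular ≤ _ := singular_le n
        _ ≤ (1 / 2 + ε / 2) ^ n + (1 / 2 + ε / 2) ^ n := add_le_add h2 h1
        _ ≤ _ := by linarith

end Vale.Agent.P160
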