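import Vale.Agent.P160.Sparse

/-! The exact exponential rate of the sparse singular event. -/

namespace Vale.Agent.P160

open Finset Filter
open scoped Classical Topology

variable {n : ℕ}

/-- The probability of an event. -/
noncomputable def prob (E : Finset (Sym2 (Fin n) → Bool)) : ℝ :=
  (E.card : ℝ) / (2 : ℝ) ^ Fintype.card (Sym2 (Fin n))

theorem prob_nonneg (E : Finset (Sym2 (Fin n) → Bool)) : 0 ≤ prob E := by
  unfold prob; positivity

theorem prob_mono {E F : Finset (Sym2 (Fin n) → Bool)} (h : E ⊆ F) : prob E ≤ prob F := by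
  unfold prob; gcongr

theorem prob_union (E F : Finset (Sym2 (Fin n) → Bool)) : prob (E ∪ F) ≤ prob E + prob F := by
  rw [prob, prob, prob, ← add_div]
  gcongr
  exact_mod_cast card_union_le E F

theorem prob_biUnion {β : Type*} (s : Finset β) (f : β → Finset (Sym2 (Fin n) → Bool)) :
    prob (s.biUnion f) ≤ ∑ b ∈ s, prob (f b) := by
  simp only [prob]
  rw [← Finset.sum_div]
  gcongr
  exact_mod_cast card_biUnion_le

theorem prob_le_of_card {E : Finset (Sym2 (Fin n) → Bool)} {a M : ℕ}
    (h : E.card * 2 ^ a ≤ M * 2 ^ Fintype.card (Sym2 (Fin n))) :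
    prob E ≤ (M : ℝ) / 2 ^ a := by
  rw [prob, div_le_div_iff₀ (by positivity) (by positivity)]
  exact_mod_cast h

theorem prob_pairEvent_le {i j : Fin n} (hij : i ≠ j) (b : Bool) :
    prob (pairEvent i j b) ≤ (1 / 2) ^ n := by
  have := prob_le_of_card (M := 1) (by rw [one_mul]; exact card_pairEvent_le hij b)
  simpa [one_div] using this

theorem prob_corankEvent_le (S T : Finset (Fin n)) :
    prob (corankEvent S T) ≤ (1 / 2) ^ (T.card + 1).choose 2 := by
  have := prob_le_of_card (M := 1) (by rw [one_mul]; exact card_corankEvent_le S T)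
  simpa [one_div] using this

/-- The Littlewood-Offord probability. -/
noncomputable def rho (k : ℕ) : ℝ := (k.choose (k / 2) : ℝ) / 2 ^ k

theorem rho_nonneg (k : ℕ) : 0 ≤ rho k := by unfold rho; positivity

theorem rho_le_three_eighths {k : ℕ} (hk : 3 ≤ k) : rho k ≤ 3 / 8 := by
  rw [rho, div_le_div_iff₀ (by positivity) (by norm_num), mul_comm]
  exact_mod_cast choose_middle_le k hk

theorem rho_le_sqrt {k n : ℕ} (hn : 1 ≤ n) (hk : n ≤ 64 * k) : rho k ≤ 16 / Real.sqrt n := by
  have hk0 : 1 ≤ k := by omega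
  have h : ((k.choose (k / 2) : ℝ)) ^ 2 * k ≤ 4 * 4 ^ k := by exact_mod_cast choose_middle_sq_le k
  have hk' : (n : ℝ) ≤ 64 * k := by exact_mod_cast hk
  have h0 := rho_nonneg k
  have hs : 0 < Real.sqrt n := Real.sqrt_pos.2 (by exact_mod_cast hn)
  rw [le_div_iff₀ hs, ← Real.sqrt_sq h0, ← Real.sqrt_mul (sq_nonneg _),
    Real.sqrt_le_left (by norm_num)]
  have h2 : rho k ^ 2 * k ≤ 4 := by
    rw [rho, div_pow, ← pow_mul, mul_comm k 2, pow_mul, div_mul_eq_mul_div,
      div_le_iff₀ (by positivity)]
    norm_num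
    exact h
  nlinarith [sq_nonneg (rho k)]

theorem prob_mainEvent_le {S R : Finset (Fin n)} {D : ℕ} (hS : 3 ≤ S.card) (hR : R.card ≤ D) :
    prob (mainEvent S R) ≤ rho S.card ^ (n - S.card - D) := by
  refine (prob_le_of_card card_mainEvent_le).trans ?_
  rw [Nat.cast_pow, pow_mul, ← div_pow]
  refine pow_le_pow_of_le_one (rho_nonneg _) ((rho_le_three_eighths hS).trans (by norm_num)) ?_
  rw [card_compl, Fintype.card_fin]
  have := card_union_le S R
  omega

/-- Few small sets. -/
theorem card_small_sets_le (n D : ℕ) :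
    ((univ : Finset (Finset (Fin n))).filter fun R => R.card ≤ D).card ≤ (n + 1) ^ D := by
  calc _ ≤ ((range (D + 1)).biUnion fun j => (univ : Finset (Fin n)).powersetCard j).card := by
        refine card_le_card fun R hR => ?_
        simp only [mem_filter, mem_univ, true_and] at hR
        exact mem_biUnion.2 ⟨R.card, mem_range.2 (by omega), mem_powersetCard.2 ⟨subset_univ _, rfl⟩⟩
    _ ≤ ∑ j ∈ range (D + 1), n.choose j := by
        refine card_biUnion_le.trans (le_of_eq ?_)
        simp
    _ ≤ ∑ j ∈ range (D + 1), n ^ j * 1 ^ (D - j) * D.choose j := by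
        refine sum_le_sum fun j hj => ?_
        have := Nat.choose_pos (show j ≤ D by simp at hj; omega)
        calc n.choose j ≤ n ^ j := Nat.choose_le_pow n j
          _ ≤ _ := by rw [one_pow, mul_one]; exact Nat.le_mul_of_pos_right _ this
    _ = (n + 1) ^ D := (add_pow n 1 D).symm

/-- Small supports. -/
theorem small_supports_le (n D m : ℕ) (hm : D ≤ m) :
    ∑ S ∈ ((univ : Finset (Finset (Fin n))).filter fun S => 3 ≤ S.card ∧ S.card + m ≤ n).filter
        (fun S => 64 * S.card ≤ n), rho S.card ^ (n - S.card - D) ≤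
      (4264 / 10000 : ℝ) ^ n * (8 / 3) ^ D := by
  set F := ((univ : Finset (Finset (Fin n))).filter fun S => 3 ≤ S.card ∧ S.card + m ≤ n).filter
        (fun S => 64 * S.card ≤ n)
  set q := n / 64 with hq
  calc _ ≤ ∑ S ∈ F, (3 / 8 : ℝ) ^ n * (8 / 3) ^ D *
        ((1 / 16) ^ S.card * (128 / 3) ^ q) := by
        refine sum_le_sum fun S hS => ?_
        simp only [F, mem_filter, mem_univ, true_and] at hS
        obtain ⟨⟨h3, hmn⟩, h64⟩ := hS
        refine (pow_le_pow_left₀ (rho_nonneg _) (rho_le_three_eighths h3) _).trans ?_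
        have e1 : (3 / 8 : ℝ) ^ (n - S.card - D) =
            (3 / 8) ^ n * (8 / 3) ^ D * (8 / 3) ^ S.card := by
          have hsplit : (3 / 8 : ℝ) ^ n =
              (3 / 8) ^ (n - S.card - D) * ((3 / 8) ^ D * (3 / 8) ^ S.card) := by
            rw [← pow_add, ← pow_add]; congr 1; omega
          rw [hsplit]
          calc (3 / 8 : ℝ) ^ (n - S.card - D)
              = (3 / 8) ^ (n - S.card - D) * (((3 / 8) * (8 / 3)) ^ D * ((3 / 8) * (8 / 3)) ^ S.card) := by
                norm_num
            _ = _ := by rw [mul_pow, mul_pow]; ring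
        rw [e1]
        refine mul_le_mul_of_nonneg_left ?_ (by positivity)
        calc (8 / 3 : ℝ) ^ S.card = (1 / 16) ^ S.card * (128 / 3) ^ S.card := by
              rw [← mul_pow]; norm_num
          _ ≤ _ := mul_le_mul_of_nonneg_left
              (pow_le_pow_right₀ (by norm_num) (by omega)) (by positivity)
    _ ≤ ∑ S ∈ (univ : Finset (Fin n)).powerset, (3 / 8 : ℝ) ^ n * (8 / 3) ^ D *
        ((1 / 16) ^ S.card * (128 / 3) ^ q) :=
        sum_le_sum_of_subset_of_nonneg (fun S _ => by simp) fun _ _ _ => by positivity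
    _ = (3 / 8 : ℝ) ^ n * (8 / 3) ^ D * ((1 / 16 + 1) ^ n * (128 / 3) ^ q) := by
        rw [← mul_sum, ← sum_mul]
        congr 2
        have := sum_pow_mul_eq_add_pow (1 / 16 : ℝ) 1 (univ : Finset (Fin n))
        simpa using this
    _ ≤ _ := by
        have h1 : (128 / 3 : ℝ) ^ q ≤ (107 / 100) ^ n := by
          calc (128 / 3 : ℝ) ^ q ≤ ((107 / 100) ^ 64) ^ q :=
                pow_le_pow_left₀ (by norm_num) (by norm_num) _
            _ = (107 / 100) ^ (64 * q) := (pow_mul _ _ _).symm
            _ ≤ _ := pow_le_pow_right₀ (by norm_num) (by omega)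
        calc (3 / 8 : ℝ) ^ n * (8 / 3) ^ D * ((1 / 16 + 1) ^ n * (128 / 3) ^ q)
            ≤ (3 / 8 : ℝ) ^ n * (8 / 3) ^ D * ((1 / 16 + 1) ^ n * (107 / 100) ^ n) := by gcongr
          _ = (3 / 8 * (1 / 16 + 1) * (107 / 100)) ^ n * (8 / 3) ^ D := by rw [mul_pow, mul_pow]; ring
          _ ≤ _ := by gcongr; norm_num

/-- Large supports. -/
theorem large_supports_le (n D m : ℕ) (hn : 256 ≤ n) :
    ∑ S ∈ ((univ : Finset (Finset (Fin n))).filter fun S => 3 ≤ S.card ∧ S.card + m ≤ n).filter
        (fun S => ¬ 64 * S.card ≤ n), rho S.card ^ (n - S.card - D) ≤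
      (2 : ℝ) ^ n * (16 / Real.sqrt n) ^ (m - D) := by
  have hs : (16 : ℝ) ≤ Real.sqrt n := by
    rw [show (16 : ℝ) = Real.sqrt (16 * 16) from (Real.sqrt_mul_self (by norm_num)).symm]
    exact Real.sqrt_le_sqrt (by norm_num; exact_mod_cast hn)
  refine (sum_le_card_nsmul _ _ ((16 / Real.sqrt n) ^ (m - D)) fun S hS => ?_).trans ?_
  · simp only [mem_filter, mem_univ, true_and] at hS
    refine (pow_le_pow_left₀ (rho_nonneg _) (rho_le_sqrt (n := n) (by omega) (by omega)) _).trans ?_
    exact pow_le_pow_of_le_one (by positivity)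
      ((div_le_one (by positivity)).2 hs) (by omega)
  · rw [nsmul_eq_mul]
    refine mul_le_mul_of_nonneg_right ?_ (by positivity)
    have := (card_le_univ (((univ : Finset (Finset (Fin n))).filter
      fun S => 3 ≤ S.card ∧ S.card + m ≤ n).filter fun S => ¬ 64 * S.card ≤ n))
    rw [Fintype.card_finset, Fintype.card_fin] at this
    exact_mod_cast this

/-- The co-support threshold. -/
noncomputable def thr (n : ℕ) : ℕ := ⌈4 * (n : ℝ) / Real.log n⌉₊

/-- The threshold for the corank. -/
def Dn (n : ℕ) : ℕ := 3 * (Nat.sqrt n + 1)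

/-- The analytic facts used for large `n`. -/
theorem eventually_facts : ∀ᶠ n : ℕ in atTop, 256 ≤ n ∧ 2 ≤ Real.log n ∧
    Real.log n ≤ (Real.sqrt n) / 1000 ∧ Real.log 16 ≤ Real.log n / 100 ∧ 3 ≤ Real.sqrt n := by
  have h1 : Tendsto (fun n : ℕ => Real.log n) atTop atTop :=
    Real.tendsto_log_atTop.comp tendsto_natCast_atTop_atTop
  have h2 := ((isLittleO_log_rpow_atTop (show (0 : ℝ) < 1 / 2 by norm_num)).comp_tendsto
    tendsto_natCast_atTop_atTop).def (show (0 : ℝ) < 1 / 1000 by norm_num)
  filter_upwards [eventually_ge_atTop 256, h1.eventually_ge_atTop 2,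
    h1.eventually_ge_atTop (100 * Real.log 16), h2] with n hn hl hl16 hlog
  refine ⟨hn, hl, ?_, by linarith, ?_⟩
  · simp only [Function.comp_apply, Real.norm_eq_abs, ← Real.sqrt_eq_rpow] at hlog
    rw [abs_of_nonneg (by linarith), abs_of_nonneg (Real.sqrt_nonneg _)] at hlog
    linarith
  · exact Real.le_sqrt_of_sq_le (by norm_cast; omega)

theorem main_bound {n : ℕ} (hn : 256 ≤ n) (hl : 2 ≤ Real.log n)
    (hls : Real.log n ≤ Real.sqrt n / 1000) (h16 : Real.log 16 ≤ Real.log n / 100)
    (hsq : 3 ≤ Real.sqrt n) :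
    prob (sparseEvent n (thr n)) ≤ 2 * (n : ℝ) ^ 2 * (1 / 2) ^ n := by
  set D := Dn n with hD
  set m := thr n with hm
  have hn0 : (0 : ℝ) < n := by exact_mod_cast (show 0 < n by omega)
  set L := Real.log n with hL
  set s := Real.sqrt n with hs
  have hss : s * s = n := Real.mul_self_sqrt hn0.le
  have hD1 : (D : ℝ) ≤ 4 * s := by
    have := Real.nat_sqrt_le_real_sqrt (a := n)
    rw [hD, Dn]; push_cast; linarith
  have hD2 : 3 * s ≤ D := by
    have h := Real.real_sqrt_le_nat_sqrt_succ (a := n)
    rw [hD, Dn]; push_cast; linarith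
  have hmL : 4 * (n : ℝ) / L ≤ m := Nat.le_ceil _
  have hDL : (D : ℝ) * L ≤ 4 * n / 1000 := by
    calc (D : ℝ) * L ≤ (4 * s) * (s / 1000) :=
          mul_le_mul hD1 hls (by linarith) (by positivity)
      _ = 4 * n / 1000 := by rw [← hss]; ring
  have hmL' : 4 * (n : ℝ) ≤ m * L := by rwa [div_le_iff₀ (by linarith)] at hmL
  have hDm : D ≤ m := by
    have : (D : ℝ) ≤ m := le_of_mul_le_mul_right (by linarith) (show 0 < L by linarith)
    exact_mod_cast this
  have hlog2 := Real.log_two_gt_d9
  have hlog2' := Real.log_two_lt_d9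
  -- logarithms of the polynomial factors
  have hlogn1 : Real.log (n + 1 : ℝ) ≤ L + Real.log 2 := by
    rw [hL, ← Real.log_mul (by positivity) (by norm_num)]
    apply Real.log_le_log (by positivity); linarith [show (1 : ℝ) ≤ n by exact_mod_cast (show 1 ≤ n by omega)]
  have hlog83 : Real.log (8 / 3) ≤ 1 := by
    rw [Real.log_le_iff_le_exp (by norm_num)]
    linarith [Real.exp_one_gt_d9]
  have hRpow : ∀ x : ℝ, 0 < x → Real.log x ≤ 1 →
      ((n : ℝ) + 1) ^ D * x ^ D ≤ Real.exp (12 * n / 1000) := by
    intro x hx hx1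
    rw [← mul_pow, ← Real.rpow_natCast, Real.rpow_def_of_pos (by positivity),
      Real.exp_le_exp, Real.log_mul (by positivity) hx.ne']
    have hD0 : (0 : ℝ) ≤ D := Nat.cast_nonneg D
    nlinarith
  -- the three terms
  have hA : ∑ q ∈ ((univ : Finset (Fin n × Fin n)).filter fun q => q.1 < q.2) ×ˢ
      (univ : Finset Bool), prob (pairEvent q.1.1 q.1.2 q.2) ≤ (n : ℝ) ^ 2 * (1 / 2) ^ n := by
    refine (sum_le_card_nsmul _ _ ((1 / 2 : ℝ) ^ n) fun q hq => ?_).trans ?_
    · simp only [mem_product, mem_filter, mem_univ, true_and, and_true] at hq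
      exact prob_pairEvent_le hq.ne q.2
    · rw [nsmul_eq_mul]
      refine mul_le_mul_of_nonneg_right ?_ (by positivity)
      rw [card_product, card_univ, Fintype.card_bool]
      have : ((univ : Finset (Fin n × Fin n)).filter fun q => q.1 < q.2).card * 2 ≤ n ^ 2 := by
        set F := (univ : Finset (Fin n × Fin n)).filter fun q => q.1 < q.2
        set G := (univ : Finset (Fin n × Fin n)).filter fun q => q.2 < q.1
        have e : G.card = F.card := by
          refine card_bij' (fun q _ => q.swap) (fun q _ => q.swap) ?_ ?_ ?_ ?_ <;> simp [F, G]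
        have hd : Disjoint F G := by
          rw [disjoint_left]; intro q hq hq'
          simp [F, G] at hq hq'; exact absurd hq' (not_lt.2 hq.le)
        have := card_le_univ (F ∪ G)
        rw [card_union_of_disjoint hd, e, Fintype.card_prod, Fintype.card_fin] at this
        nlinarith
      exact_mod_cast this
  have hB : ∑ q ∈ (univ : Finset (Finset (Fin n))) ×ˢ
      (univ : Finset (Fin n)).powersetCard (D + 1), prob (corankEvent q.1 q.2) ≤ (1 / 2) ^ n := by
    refine (sum_le_card_nsmul _ _ ((1 / 2 : ℝ) ^ (3 * n)) fun q hq => ?_).trans ?_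
    · simp only [mem_product, mem_powersetCard, mem_univ, true_and] at hq
      refine (prob_corankEvent_le _ _).trans (pow_le_pow_of_le_one (by norm_num) (by norm_num) ?_)
      rw [hq.2, Nat.choose_two_right, Nat.le_div_iff_mul_le (by norm_num)]
      have h9 : 9 * n ≤ D * D := by
        have : (9 * n : ℝ) ≤ (D : ℝ) * D := by nlinarith
        exact_mod_cast this
      simp only [Nat.add_sub_cancel]
      nlinarith
    · rw [nsmul_eq_mul, card_product, card_univ, Fintype.card_finset, Fintype.card_fin,
        card_powersetCard, card_univ, Fintype.card_fin]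
      have : n.choose (D + 1) ≤ 2 ^ n := Nat.choose_le_two_pow n (D + 1)
      calc ((2 ^ n * n.choose (D + 1) : ℕ) : ℝ) * (1 / 2) ^ (3 * n)
          ≤ ((2 ^ n * 2 ^ n : ℕ) : ℝ) * (1 / 2) ^ (3 * n) := by gcongr
        _ = ((2 : ℝ) * 2 * (1 / 2) ^ 3) ^ n := by
            rw [mul_pow, mul_pow, ← pow_mul]; push_cast; ring
        _ = _ := by norm_num
  have hC : ∑ q ∈ ((univ : Finset (Finset (Fin n))).filter fun S => 3 ≤ S.card ∧ S.card + m ≤ n) ×ˢ
      ((univ : Finset (Finset (Fin n))).filter fun R => R.card ≤ D),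
      prob (mainEvent q.1 q.2) ≤ 2 * (1 / 2) ^ n := by
    rw [sum_product]
    calc _ ≤ ∑ S ∈ (univ : Finset (Finset (Fin n))).filter (fun S => 3 ≤ S.card ∧ S.card + m ≤ n),
          ((n : ℝ) + 1) ^ D * rho S.card ^ (n - S.card - D) := by
          refine sum_le_sum fun S hS => ?_
          refine (sum_le_card_nsmul _ _ _ fun R hR =>
            prob_mainEvent_le (mem_filter.1 hS).2.1 (mem_filter.1 hR).2).trans ?_
          rw [nsmul_eq_mul]
          refine mul_le_mul_of_nonneg_right ?_ (pow_nonneg (rho_nonneg _) _)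
          exact_mod_cast card_small_sets_le n D
      _ ≤ ((n : ℝ) + 1) ^ D * ((4264 / 10000 : ℝ) ^ n * (8 / 3) ^ D +
          (2 : ℝ) ^ n * (16 / s) ^ (m - D)) := by
          rw [← mul_sum]
          gcongr
          rw [← sum_filter_add_sum_filter_not
            ((univ : Finset (Finset (Fin n))).filter fun S => 3 ≤ S.card ∧ S.card + m ≤ n)
            (fun S => 64 * S.card ≤ n)]
          exact add_le_add (small_supports_le n D m hDm) (large_supports_le n D m hn)
      _ ≤ (1 / 2) ^ n + (1 / 2) ^ n := by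
          rw [mul_add]
          apply add_le_add
          · calc ((n : ℝ) + 1) ^ D * ((4264 / 10000) ^ n * (8 / 3) ^ D)
                = (((n : ℝ) + 1) ^ D * (8 / 3) ^ D) * (4264 / 10000) ^ n := by ring
              _ ≤ Real.exp (12 * n / 1000) * (4264 / 10000) ^ n := by
                  gcongr; exact hRpow _ (by norm_num) hlog83
              _ = (Real.exp (12 / 1000) * (4264 / 10000)) ^ n := by
                  rw [mul_pow, ← Real.exp_nat_mul]; ring_nf
              _ ≤ _ := by
                  gcongr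
                  have := Real.exp_bound_div_one_sub_of_interval (x := 12 / 1000) (by norm_num)
                    (by norm_num)
                  nlinarith
          · have hR1 : ((n : ℝ) + 1) ^ D ≤ Real.exp (12 * n / 1000) := by
              simpa using hRpow 1 one_pos (by simp)
            have hlog : Real.log (16 / s) ≤ -(49 / 100) * L := by
              rw [Real.log_div (by norm_num) (by positivity), hs, Real.log_sqrt hn0.le]
              linarith
            have hpow : (16 / s) ^ (m - D) ≤ Real.exp (-(195 / 100) * n) := by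
              rw [← Real.rpow_natCast, Real.rpow_def_of_pos (by positivity), Real.exp_le_exp,
                Nat.cast_sub hDm]
              have hmD : (0 : ℝ) ≤ (m : ℝ) - D := by simp; exact_mod_cast hDm
              have := mul_le_mul_of_nonneg_right hlog hmD
              nlinarith
            calc ((n : ℝ) + 1) ^ D * (2 ^ n * (16 / s) ^ (m - D))
                ≤ Real.exp (12 * n / 1000) * (2 ^ n * Real.exp (-(195 / 100) * n)) := by gcongr
              _ = (Real.exp (12 / 1000 + Real.log 2 + -(195 / 100))) ^ n := by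
                  rw [← Real.exp_nat_mul, ← Real.exp_log (show (0 : ℝ) < 2 ^ n by positivity),
                    ← Real.exp_add, ← Real.exp_add, Real.log_pow]
                  ring_nf
              _ ≤ _ := by
                  gcongr
                  rw [← Real.exp_log (show (0 : ℝ) < 1 / 2 by norm_num), Real.exp_le_exp,
                    one_div, Real.log_inv]
                  linarith
      _ = _ := by ring
  refine (prob_mono (sparseEvent_subset m D)).trans ?_
  refine ((prob_union _ _).trans (add_le_add ((prob_union _ _).trans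
    (add_le_add (prob_biUnion _ _) (prob_biUnion _ _))) (prob_biUnion _ _))).trans ?_
  have hn3 : (3 : ℝ) ≤ (n : ℝ) ^ 2 := by
    have : (256 : ℝ) ≤ n := by exact_mod_cast hn
    nlinarith
  have hh : (0 : ℝ) < (1 / 2) ^ n := by positivity
  nlinarith

theorem lower_bound {n : ℕ} (hn : 256 ≤ n) :
    (1 / 2 : ℝ) ^ n ≤ prob (sparseEvent n (thr n)) := by
  set i : Fin n := ⟨0, by omega⟩
  set j : Fin n := ⟨1, by omega⟩
  have hij : i ≠ j := by simp [i, j, Fin.ext_iff]
  refine le_trans ?_ (prob_mono (E := pairEvent i j false) ?_)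
  · rw [prob, le_div_iff₀ (by positivity), one_div, inv_pow, inv_mul_le_iff₀ (by positivity),
      mul_comm ((2 : ℝ) ^ n)]
    exact_mod_cast le_card_pairEvent hij
  · intro ω hω
    simp only [pairEvent, mem_filter, mem_univ, true_and, Bool.xor_false] at hω
    simp only [sparseEvent, mem_filter, mem_univ, true_and]
    refine ⟨Pi.single i 1 - Pi.single j 1, ?_, ?_, ?_⟩
    · intro h
      have := congrFun h i
      simp [hij] at this
    · have h2 : ((univ : Finset (Fin n)).filter
          fun l => (Pi.single i (1 : ℝ) - Pi.single j 1 : Fin n → ℝ) l ≠ 0).card ≤ 2 := by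
        refine le_trans (card_le_card ?_) (card_le_two (a := i) (b := j))
        intro l hl
        simp only [mem_filter, mem_univ, true_and] at hl
        by_contra hcon
        simp only [mem_insert, mem_singleton, not_or] at hcon
        simp [hcon.1, hcon.2] at hl
      have hm : thr n + 2 ≤ n := by
        have hn0 : (256 : ℝ) ≤ n := by exact_mod_cast hn
        have h5 : 5 ≤ Real.log n := by
          have h8 := Real.log_le_log (show (0 : ℝ) < 256 by norm_num) hn0
          rw [show (256 : ℝ) = 2 ^ 8 by norm_num, Real.log_pow] at h8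
          push_cast at h8
          linarith [Real.log_two_gt_d9]
        have h1 : 4 * (n : ℝ) / Real.log n ≤ 4 / 5 * n := by
          rw [div_le_iff₀ (by linarith)]; nlinarith
        have h2' := Nat.ceil_lt_add_one (show (0 : ℝ) ≤ 4 * (n : ℝ) / Real.log n by positivity)
        have : (thr n : ℝ) + 2 ≤ n := by rw [thr]; linarith
        exact_mod_cast this
      omega
    · funext l
      rw [mulVec_eq, row]
      simp [Pi.single_apply, mul_sub, sum_sub_distrib, hω l]

end Vale.Agent.P160
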