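import Vale.Agent.P160.Count

/-! Kernel vectors of small support for symmetric sign matrices. -/

namespace Vale.Agent.P160

open Finset
open scoped Classical

variable {n : ℕ}

/-- The symmetric sign matrix with the signs `ω`. -/
def signMat (ω : Sym2 (Fin n) → Bool) : Matrix (Fin n) (Fin n) ℝ :=
  Matrix.of fun i j => sgn (ω s(i, j))

/-- The `i`-th coordinate of the image of `v`. -/
def row (ω : Sym2 (Fin n) → Bool) (v : Fin n → ℝ) (i : Fin n) : ℝ := ∑ j, sgn (ω s(i, j)) * v j

theorem mulVec_eq (ω : Sym2 (Fin n) → Bool) (v : Fin n → ℝ) (i : Fin n) :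
    (signMat ω).mulVec v i = row ω v i := rfl

theorem row_eq_sum_supp (ω : Sym2 (Fin n) → Bool) {S : Finset (Fin n)} {v : Fin n → ℝ}
    (h : ∀ j, j ∉ S → v j = 0) (i : Fin n) : row ω v i = ∑ j ∈ S, sgn (ω s(i, j)) * v j := by
  rw [row, ← sum_subset (subset_univ S)]
  intro j _ hj
  rw [h j hj, mul_zero]

/-- The sparse singular event. -/
noncomputable def sparseEvent (n m : ℕ) : Finset (Sym2 (Fin n) → Bool) :=
  univ.filter fun ω => ∃ v : Fin n → ℝ, v ≠ 0 ∧
    (univ.filter fun i => v i ≠ 0).card + m ≤ n ∧ (signMat ω).mulVec v = 0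

/-- Two rows agree up to the sign `b`. -/
noncomputable def pairEvent (i j : Fin n) (b : Bool) : Finset (Sym2 (Fin n) → Bool) :=
  univ.filter fun ω => ∀ l, ω s(l, i) = (ω s(l, j) ^^ b)

/-- The submatrix on `S` has a kernel with pivots `T`. -/
noncomputable def corankEvent (S T : Finset (Fin n)) : Finset (Sym2 (Fin n) → Bool) :=
  univ.filter fun ω => T ⊆ S ∧ ∃ e : Fin n → Fin n → ℝ, ∀ t ∈ T,
    (∀ j, j ∉ S → e t j = 0) ∧ (∀ t' ∈ T, e t t' = if t' = t then 1 else 0) ∧
      ∀ l ∈ S, row ω (e t) l = 0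

/-- A kernel vector with support exactly `S`, determined by the rows in `S ∪ R`. -/
noncomputable def mainEvent (S R : Finset (Fin n)) : Finset (Sym2 (Fin n) → Bool) :=
  univ.filter fun ω => ∃ v : Fin n → ℝ, (∀ j, v j ≠ 0 ↔ j ∈ S) ∧ (∀ i, row ω v i = 0) ∧
    ∀ u : Fin n → ℝ, (∀ j, j ∉ S → u j = 0) → (∀ i ∈ S ∪ R, row ω u i = 0) → ∃ c : ℝ, u = c • v

theorem card_pairEvent_le {i j : Fin n} (hij : i ≠ j) (b : Bool) :
    (pairEvent i j b).card * 2 ^ n ≤ 2 ^ Fintype.card (Sym2 (Fin n)) := by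
  set K := (univ : Finset (Fin n)).image fun l => s(l, i) with hK
  have hKc : K.card = n := by
    rw [hK, card_image_of_injective _ fun a b h => Sym2.congr_left.1 h, card_univ,
      Fintype.card_fin]
  have := card_mul_two_pow_le_one (pairEvent i j b) K ?_
  · rwa [hKc] at this
  intro ω hω ω' hω' hag
  simp only [pairEvent, mem_filter, mem_univ, true_and] at hω hω'
  have hni : ∀ l, l ≠ i → ω s(l, j) = ω' s(l, j) := fun l hl => by
    refine hag _ fun h => ?_
    obtain ⟨a, -, ha⟩ := mem_image.1 h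
    simp [hl.symm, hij, eq_comm] at ha
  have hii : ω s(i, j) = ω' s(i, j) := by
    rw [Sym2.eq_swap, hω j, hω' j, hni j hij.symm]
  funext e
  by_cases he : e ∈ K
  · obtain ⟨l, -, rfl⟩ := mem_image.1 he
    rw [hω l, hω' l]
    by_cases hl : l = i
    · rw [hl, hii]
    · rw [hni l hl]
  · exact hag e he

theorem le_card_pairEvent {i j : Fin n} (hij : i ≠ j) :
    2 ^ Fintype.card (Sym2 (Fin n)) ≤ (pairEvent i j false).card * 2 ^ n := by
  let new : (Sym2 (Fin n) → Bool) → Fin n → Bool := fun ω l =>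
    if l = i then ω s(j, j) else ω s(l, j)
  let fix' : (Sym2 (Fin n) → Bool) → Sym2 (Fin n) → Bool := fun ω e =>
    if h : i ∈ e then new ω (Sym2.Mem.other h) else ω e
  have hoth : ∀ (ω : Sym2 (Fin n) → Bool) l, fix' ω s(l, i) = new ω l := fun ω l => by
    have h : i ∈ s(l, i) := Sym2.mem_mk_right l i
    simp only [fix', dif_pos h]
    congr 1
    have := Sym2.other_spec h
    rw [Sym2.eq_swap] at this
    exact Sym2.congr_left.1 this
  have hcard : (pairEvent i j false ×ˢ (univ : Finset (Fin n → Bool))).card =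
      (pairEvent i j false).card * 2 ^ n := by simp
  rw [← hcard, ← Fintype.card_bool, ← Fintype.card_fun, ← card_univ]
  refine card_le_card_of_injOn (fun ω => (fix' ω, fun l => ω s(l, i))) ?_ ?_
  · intro ω _
    simp only [coe_product, Set.mem_prod, mem_coe, mem_univ, and_true, pairEvent, mem_filter,
      true_and, Bool.xor_false]
    intro l
    rw [hoth]
    by_cases hlj : l = i
    · subst hlj
      have : fix' ω s(l, j) = new ω j := by rw [Sym2.eq_swap]; exact hoth ω j
      rw [this]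
      simp [new]
    · have : i ∉ s(l, j) := by simp [Ne.symm hlj, hij]
      simp [fix', this, new, hlj]
  · intro ω _ ω' _ h
    simp only [Prod.mk.injEq] at h
    funext e
    by_cases he : i ∈ e
    · obtain ⟨l, rfl⟩ := he
      rw [Sym2.eq_swap]
      exact congrFun h.2 l
    · simpa [fix', he] using congrFun h.1 e

theorem card_corankEvent_le (S T : Finset (Fin n)) :
    (corankEvent S T).card * 2 ^ (T.card + 1).choose 2 ≤ 2 ^ Fintype.card (Sym2 (Fin n)) := by
  rw [← card_sym2]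
  refine card_mul_two_pow_le_one _ _ fun ω hω ω' hω' hag => ?_
  simp only [corankEvent, mem_filter, mem_univ, true_and] at hω hω'
  obtain ⟨hTS, e, he⟩ := hω
  obtain ⟨-, e', he'⟩ := hω'
  have hsame : ∀ a b, b ∉ T → ω s(a, b) = ω' s(a, b) := fun a b hb => hag _ fun h => by
    rw [mk_mem_sym2_iff] at h
    exact hb h.2
  -- split off the pivots
  have hrow : ∀ (ω : Sym2 (Fin n) → Bool) (e : Fin n → Fin n → ℝ) (t : Fin n), t ∈ T →
      (∀ j, j ∉ S → e t j = 0) → (∀ t' ∈ T, e t t' = if t' = t then 1 else 0) → ∀ l,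
      row ω (e t) l = sgn (ω s(l, t)) + ∑ j ∈ S \ T, sgn (ω s(l, j)) * e t j := by
    intro ω e t ht h1 h2 l
    rw [row_eq_sum_supp ω h1, ← sum_sdiff hTS, add_comm]
    congr 1
    rw [sum_eq_single t]
    · simp [h2 t ht]
    · intro b hb hbt; simp [h2 b hb, hbt]
    · exact fun h => absurd ht h
  funext z
  induction z using Sym2.ind with
  | _ a b =>
  by_cases hab : a ∈ T ∧ b ∈ T
  swap
  · exact hag _ (by rwa [mk_mem_sym2_iff])
  obtain ⟨ha, hb⟩ := hab
  apply sgn_injective
  obtain ⟨h1, h2, h3⟩ := he b hb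
  obtain ⟨h1', h2', h3'⟩ := he' b hb
  obtain ⟨g1, g2, g3⟩ := he a ha
  have e1 := h3 a (hTS ha)
  have e2 := h3' a (hTS ha)
  rw [hrow ω e b hb h1 h2] at e1
  rw [hrow ω' e' b hb h1' h2'] at e2
  set d : Fin n → ℝ := fun j => e b j - e' b j with hd
  -- the difference is killed by the rows outside the pivots
  have hd0 : ∀ i ∈ S \ T, ∑ j ∈ S \ T, sgn (ω s(i, j)) * d j = 0 := by
    intro i hi
    obtain ⟨hiS, hiT⟩ := mem_sdiff.1 hi
    have f1 := h3 i hiS
    have f2 := h3' i hiS
    rw [hrow ω e b hb h1 h2] at f1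
    rw [hrow ω' e' b hb h1' h2'] at f2
    have h4 : ω' s(i, b) = ω s(i, b) := by
      rw [Sym2.eq_swap]; exact (hsame b i hiT).symm
    have h5 : ∀ j ∈ S \ T, ω' s(i, j) = ω s(i, j) := fun j hj =>
      (hsame i j (mem_sdiff.1 hj).2).symm
    rw [sum_congr rfl fun j hj => by rw [h5 j hj], h4] at f2
    simp only [hd, mul_sub, sum_sub_distrib]
    linarith
  have hzero : ∑ j ∈ S \ T, sgn (ω s(a, j)) * d j = 0 := by
    have : ∀ j ∈ S \ T, sgn (ω s(a, j)) = -∑ i ∈ S \ T, sgn (ω s(j, i)) * e a i := by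
      intro j hj
      have := g3 j (mem_sdiff.1 hj).1
      rw [hrow ω e a ha g1 g2, Sym2.eq_swap] at this
      linarith
    calc ∑ j ∈ S \ T, sgn (ω s(a, j)) * d j
        = ∑ j ∈ S \ T, ∑ i ∈ S \ T, -(e a i * (sgn (ω s(i, j)) * d j)) := by
          refine sum_congr rfl fun j hj => ?_
          rw [this j hj, neg_mul, sum_mul, ← sum_neg_distrib]
          refine sum_congr rfl fun i _ => ?_
          rw [Sym2.eq_swap]
          ring
      _ = ∑ i ∈ S \ T, -(e a i * ∑ j ∈ S \ T, sgn (ω s(i, j)) * d j) := by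
          rw [sum_comm]
          refine sum_congr rfl fun i _ => ?_
          rw [mul_sum, ← sum_neg_distrib]
      _ = 0 := sum_eq_zero fun i hi => by rw [hd0 i hi, mul_zero, neg_zero]
  have h6 : ∀ j ∈ S \ T, ω' s(a, j) = ω s(a, j) := fun j hj =>
    (hsame a j (mem_sdiff.1 hj).2).symm
  rw [sum_congr rfl fun j hj => by rw [h6 j hj]] at e2
  simp only [hd, mul_sub, sum_sub_distrib] at hzero
  linarith

theorem card_mainEvent_le {S R : Finset (Fin n)} :
    (mainEvent S R).card * 2 ^ (S.card * (S ∪ R)ᶜ.card) ≤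
      S.card.choose (S.card / 2) ^ (S ∪ R)ᶜ.card * 2 ^ Fintype.card (Sym2 (Fin n)) := by
  set U := (S ∪ R)ᶜ with hU
  set K := (U ×ˢ S).image fun q => s(q.1, q.2) with hK
  have hKc : K.card = S.card * U.card := by
    rw [hK, card_image_of_injOn, card_product, mul_comm]
    intro q hq q' hq' h
    simp only [coe_product, Set.mem_prod, mem_coe, hU, mem_compl, mem_union, not_or] at hq hq'
    rcases Sym2.eq_iff.1 h with ⟨h1, h2⟩ | ⟨h1, h2⟩
    · exact Prod.ext h1 h2
    · exact absurd (h1 ▸ hq'.2) hq.1.1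
  rw [← hKc]
  refine card_mul_two_pow_le _ K _ fun ω₁ hω₁ => ?_
  simp only [mainEvent, mem_filter, mem_univ, true_and] at hω₁
  obtain ⟨v, hv, -, huniq⟩ := hω₁
  have hsupp : ∀ j, j ∉ S → v j = 0 := fun j hj => not_not.1 fun h => hj ((hv j).1 h)
  set allowed : Finset ({j // j ∈ S} → Bool) :=
    univ.filter fun x => ∑ j, sgn (x j) * v j.1 = 0 with hallowed
  have hLO : allowed.card ≤ S.card.choose (S.card / 2) := by
    have := littlewood_offord (fun j : {j // j ∈ S} => v j.1) fun j => (hv j.1).2 j.2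
    rw [Fintype.card_coe] at this
    convert this using 3
  calc _ ≤ (Fintype.piFinset fun _ : {i // i ∈ U} => allowed).card := ?_
    _ = allowed.card ^ U.card := by
        rw [Fintype.card_piFinset, prod_const, card_univ, Fintype.card_coe]
    _ ≤ _ := Nat.pow_le_pow_left hLO _
  refine card_le_card_of_injOn (fun ω i j => ω s(i.1, j.1)) ?_ ?_
  · intro ω hω
    simp only [mainEvent, coe_filter, mem_filter, mem_univ, true_and, Set.mem_ofPred_eq] at hω
    obtain ⟨⟨w, hw, hrow, -⟩, hag⟩ := hω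
    have hwS : ∀ j, j ∉ S → w j = 0 := fun j hj => not_not.1 fun h => hj ((hw j).1 h)
    obtain ⟨c, hc⟩ := huniq w hwS fun i hi => by
      rw [← hrow i, row_eq_sum_supp _ hwS, row_eq_sum_supp _ hwS]
      refine sum_congr rfl fun j hj => ?_
      rw [hag _ fun h => ?_]
      obtain ⟨q, hq, h'⟩ := mem_image.1 h
      simp only [hU, mem_product, mem_compl] at hq
      rcases Sym2.eq_iff.1 h' with ⟨h1, -⟩ | ⟨h1, -⟩
      · exact hq.1 (h1 ▸ hi)
      · exact hq.1 (h1 ▸ mem_union_left _ hj)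
    simp only [mem_coe, Fintype.mem_piFinset, hallowed, mem_filter, mem_univ,
      true_and]
    intro i
    have h := hrow i.1
    rw [row_eq_sum_supp _ hwS] at h
    rw [sum_coe_sort S fun j => sgn (ω s(i.1, j)) * v j]
    rcases S.eq_empty_or_nonempty with hS0 | ⟨j, hj⟩
    · rw [hS0, sum_empty]
    have hc0 : c ≠ 0 := by
      rintro rfl
      exact (hw j).2 hj (by rw [hc]; simp)
    refine (mul_eq_zero.1 ?_).resolve_left hc0
    rw [mul_sum, ← h]
    exact sum_congr rfl fun j _ => by rw [hc]; simp; ring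
  · intro ω hω ω' hω' h
    simp only [coe_filter, Set.mem_ofPred_eq] at hω hω'
    funext z
    by_cases hz : z ∈ K
    · obtain ⟨⟨i, j⟩, hq, rfl⟩ := mem_image.1 hz
      obtain ⟨hi, hj⟩ := mem_product.1 hq
      exact congrFun (congrFun h ⟨i, hi⟩) ⟨j, hj⟩
    · exact (hω.2 z hz).trans (hω'.2 z hz).symm

/-- Pivots of a subspace. -/
theorem exists_pivots : ∀ (k : ℕ) (W : Submodule ℝ (Fin n → ℝ)), k ≤ Module.finrank ℝ W →
    ∃ (T : Finset (Fin n)) (e : Fin n → Fin n → ℝ), T.card = k ∧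
      ∀ t ∈ T, e t ∈ W ∧ ∀ t' ∈ T, e t t' = if t' = t then 1 else 0 := by
  intro k
  induction k with
  | zero => exact fun W _ => ⟨∅, fun _ _ => 0, rfl, by simp⟩
  | succ k ih =>
    intro W hW
    have hne : W ≠ ⊥ := fun h => by rw [h, finrank_bot] at hW; omega
    obtain ⟨w, hwW, hw0⟩ := Submodule.exists_mem_ne_zero_of_ne_bot hne
    obtain ⟨a, ha⟩ := Function.ne_iff.1 hw0
    set W₁ := W ⊓ LinearMap.ker (LinearMap.proj (R := ℝ) (φ := fun _ : Fin n => ℝ) a) with hW₁
    have hrank : k ≤ Module.finrank ℝ W₁ := by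
      have h1 : W ≤ W₁ ⊔ Submodule.span ℝ {w} := by
        intro x hx
        refine Submodule.mem_sup.2 ⟨x - (x a / w a) • w, ⟨sub_mem hx (W.smul_mem _ hwW), ?_⟩,
          (x a / w a) • w, Submodule.smul_mem _ _ (Submodule.mem_span_singleton_self w), by abel⟩
        simp [div_mul_cancel₀ _ (show w a ≠ 0 from ha)]
      have h2 := Submodule.finrank_mono h1
      have h3 := Submodule.finrank_add_le_finrank_add_finrank W₁ (Submodule.span ℝ {w})
      have h4 := finrank_span_singleton (K := ℝ) hw0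
      omega
    obtain ⟨T, e, hT, he⟩ := ih W₁ hrank
    have haT : a ∉ T := fun h => by
      have h1 := (he a h).2 a h
      have h2 : e a a = 0 := by simpa using (he a h).1.2
      simp [h2] at h1
    set g : Fin n → ℝ := (w a)⁻¹ • w - ∑ t ∈ T, ((w a)⁻¹ * w t) • e t with hg
    refine ⟨insert a T, Function.update e a g, by rw [card_insert_of_notMem haT, hT], ?_⟩
    intro t ht
    rcases mem_insert.1 ht with rfl | htT
    · rw [Function.update_self]
      refine ⟨sub_mem (W.smul_mem _ hwW) (sum_mem fun t' ht' => W.smul_mem _ (he t' ht').1.1),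
        fun t' ht' => ?_⟩
      simp only [hg, Pi.sub_apply, Pi.smul_apply, Finset.sum_apply, smul_eq_mul]
      rcases mem_insert.1 ht' with rfl | ht'
      · have : ∀ s ∈ T, e s t' = 0 := fun s hs => by simpa using (he s hs).1.2
        rw [if_pos rfl, sum_eq_zero fun s hs => by rw [this s hs, mul_zero], sub_zero,
          inv_mul_cancel₀ ha]
      · rw [if_neg (ne_of_mem_of_not_mem ht' haT), sum_eq_single t', (he t' ht').2 t' ht', if_pos rfl]
        · ring
        · intro s hs hst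
          rw [(he s hs).2 t' ht', if_neg hst.symm, mul_zero]
        · exact fun h => absurd ht' h
    · have hta : t ≠ a := ne_of_mem_of_not_mem htT haT
      rw [Function.update_of_ne hta]
      refine ⟨(he t htT).1.1, fun t' ht' => ?_⟩
      rcases mem_insert.1 ht' with rfl | ht'
      · rw [if_neg hta.symm]; simpa using (he t htT).1.2
      · exact (he t htT).2 t' ht'

/-- Vectors on `S` killed by the rows in `Q`. -/
def kerOn (ω : Sym2 (Fin n) → Bool) (S Q : Finset (Fin n)) : Submodule ℝ (Fin n → ℝ) where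
  carrier := {u | (∀ j, j ∉ S → u j = 0) ∧ ∀ i ∈ Q, row ω u i = 0}
  add_mem' := fun {a b} ha hb =>
    ⟨fun j hj => by simp [ha.1 j hj, hb.1 j hj], fun i hi => by
      have : row ω (a + b) i = row ω a i + row ω b i := by
        simp [row, mul_add, sum_add_distrib]
      rw [this, ha.2 i hi, hb.2 i hi, add_zero]⟩
  zero_mem' := ⟨fun _ _ => rfl, fun i _ => by simp [row]⟩
  smul_mem' := fun c a ha =>
    ⟨fun j hj => by simp [ha.1 j hj], fun i hi => by
      have : row ω (c • a) i = c * row ω a i := by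
        simp [row, mul_sum, mul_left_comm]
      rw [this, ha.2 i hi, mul_zero]⟩

theorem exists_rows (ω : Sym2 (Fin n) → Bool) {S : Finset (Fin n)} {v : Fin n → ℝ} {a : Fin n}
    (hv : ∀ j, v j ≠ 0 ↔ j ∈ S) (ha : a ∈ S) (hker : ∀ i, row ω v i = 0)
    (hmin : ∀ u : Fin n → ℝ, u ≠ 0 → (∀ j, j ∉ S → u j = 0) → u a = 0 → ∃ i, row ω u i ≠ 0) :
    ∀ (d : ℕ) (Q : Finset (Fin n)), S ⊆ Q → Module.finrank ℝ (kerOn ω S Q) ≤ d →
      ∃ R : Finset (Fin n), R.card ≤ d ∧
        ∀ u ∈ kerOn ω S (Q ∪ R), ∃ c : ℝ, u = c • v := by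
  intro d
  induction d with
  | zero =>
    intro Q _ hd
    refine ⟨∅, le_rfl, fun u hu => ⟨0, ?_⟩⟩
    rw [union_empty, Submodule.finrank_eq_zero.1 (Nat.le_zero.1 hd), Submodule.mem_bot] at hu
    simp [hu]
  | succ d ih =>
    intro Q hSQ hd
    by_cases hall : ∀ u ∈ kerOn ω S Q, ∃ c : ℝ, u = c • v
    · exact ⟨∅, Nat.zero_le _, by simpa using hall⟩
    push Not at hall
    obtain ⟨u, hu, hne⟩ := hall
    have hvS : v ∈ kerOn ω S Q :=
      ⟨fun j hj => not_not.1 fun h => hj ((hv j).1 h), fun i _ => hker i⟩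
    set u' := u - (u a / v a) • v with hu'
    have hu'mem : u' ∈ kerOn ω S Q := sub_mem hu ((kerOn ω S Q).smul_mem _ hvS)
    have hu'a : u' a = 0 := by simp [hu', div_mul_cancel₀ _ ((hv a).2 ha)]
    obtain ⟨i, hi⟩ := hmin u' (fun h => hne _ (sub_eq_zero.1 h)) hu'mem.1 hu'a
    have hlt : kerOn ω S (insert i Q) < kerOn ω S Q := by
      refine lt_of_le_of_ne (fun x hx => ⟨hx.1, fun l hl => hx.2 l (mem_insert_of_mem hl)⟩) ?_
      intro h
      exact hi ((h ▸ hu'mem : u' ∈ kerOn ω S (insert i Q)).2 i (mem_insert_self i Q))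
    have := Submodule.finrank_lt_finrank_of_lt hlt
    obtain ⟨R, hR, hspan⟩ := ih (insert i Q) (hSQ.trans (subset_insert i Q)) (by omega)
    refine ⟨insert i R, (card_insert_le i R).trans (by omega), fun u hu => hspan u ?_⟩
    rwa [show insert i Q ∪ R = Q ∪ insert i R by rw [insert_union, union_insert]]

/-- The sparse event is covered by the three kinds of events. -/
theorem sparseEvent_subset (m D : ℕ) :
    sparseEvent n m ⊆
      ((((univ : Finset (Fin n × Fin n)).filter fun q => q.1 < q.2) ×ˢ (univ : Finset Bool)).biUnion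
        fun q => pairEvent q.1.1 q.1.2 q.2) ∪
      (((univ : Finset (Finset (Fin n))) ×ˢ (univ : Finset (Fin n)).powersetCard (D + 1)).biUnion
        fun q => corankEvent q.1 q.2) ∪
      ((((univ : Finset (Finset (Fin n))).filter fun S => 3 ≤ S.card ∧ S.card + m ≤ n) ×ˢ
          ((univ : Finset (Finset (Fin n))).filter fun R => R.card ≤ D)).biUnion
        fun q => mainEvent q.1 q.2) := by
  intro ω hω
  simp only [sparseEvent, mem_filter, mem_univ, true_and] at hω
  set supp : (Fin n → ℝ) → Finset (Fin n) := fun u => univ.filter fun i => u i ≠ 0 with hsupp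
  -- a kernel vector of least support
  have hex : ∃ k, ∃ v : Fin n → ℝ, v ≠ 0 ∧ (∀ i, row ω v i = 0) ∧ (supp v).card = k := by
    obtain ⟨v, h0, -, hv⟩ := hω
    exact ⟨_, v, h0, fun i => by rw [← mulVec_eq, hv]; rfl, rfl⟩
  obtain ⟨v, hv0, hker, hk⟩ := Nat.find_spec hex
  have hmin : ∀ u : Fin n → ℝ, u ≠ 0 → (∀ i, row ω u i = 0) → (supp v).card ≤ (supp u).card :=
    fun u h1 h2 => hk ▸ Nat.find_min' hex ⟨u, h1, h2, rfl⟩
  have hsize : (supp v).card + m ≤ n := by
    obtain ⟨w, h0, hw, hw'⟩ := hω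
    have := hmin w h0 fun i => by rw [← mulVec_eq, hw']; rfl
    simp only [hsupp] at this ⊢
    omega
  set S := supp v with hS
  have hvS : ∀ j, v j ≠ 0 ↔ j ∈ S := fun j => by simp [hS, hsupp]
  have hvS' : ∀ j, j ∉ S → v j = 0 := fun j hj => not_not.1 fun h => hj ((hvS j).1 h)
  obtain ⟨a, ha⟩ : S.Nonempty := by
    obtain ⟨j, hj⟩ := Function.ne_iff.1 hv0
    exact ⟨j, (hvS j).1 hj⟩
  rw [mem_union, mem_union]
  by_cases h2 : S.card ≤ 2
  · -- two equal or opposite rows
    left; left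
    have hc : S.card = 2 := by
      rcases Nat.lt_or_ge S.card 2 with h | h
      · exfalso
        obtain ⟨b, hb⟩ := card_eq_one.1 (show S.card = 1 by
          have := card_pos.2 ⟨a, ha⟩; omega)
        have := hker b
        rw [row_eq_sum_supp ω hvS', hb, sum_singleton, mul_eq_zero] at this
        exact this.elim (sgn_ne_zero _) ((hvS b).2 (hb ▸ mem_singleton_self b))
      · omega
    obtain ⟨i, j, hij, hSij⟩ : ∃ i j, i < j ∧ S = {i, j} := by
      obtain ⟨i, j, hij, h⟩ := card_eq_two.1 hc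
      rcases lt_or_gt_of_ne hij with h' | h'
      · exact ⟨i, j, h', h⟩
      · exact ⟨j, i, h', h.trans (pair_comm i j)⟩
    refine mem_biUnion.2 ⟨((i, j), ω s(i, i) ^^ ω s(i, j)),
      mem_product.2 ⟨mem_filter.2 ⟨mem_univ _, hij⟩, mem_univ _⟩, ?_⟩
    simp only [pairEvent, mem_filter, mem_univ, true_and]
    intro l
    have hl := hker l
    have hi := hker i
    rw [row_eq_sum_supp ω hvS', hSij, sum_pair hij.ne] at hl hi
    have hi0 : v i ≠ 0 := (hvS i).2 (by simp [hSij])
    have key : sgn (ω s(l, i)) * sgn (ω s(i, j)) = sgn (ω s(l, j)) * sgn (ω s(i, i)) :=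
      mul_right_cancel₀ hi0 (by linear_combination sgn (ω s(i, j)) * hl - sgn (ω s(l, j)) * hi)
    revert key
    cases ω s(l, i) <;> cases ω s(l, j) <;> cases ω s(i, i) <;> cases ω s(i, j) <;>
      norm_num [sgn]
  by_cases hD : Module.finrank ℝ (kerOn ω S S) ≤ D
  · right
    obtain ⟨R, hR, hspan⟩ := exists_rows ω hvS ha hker (fun u hu0 huS hua => by
      by_contra hcon
      push Not at hcon
      have h1 : supp u ⊆ S.erase a := fun j hj => by
        simp only [hsupp, mem_filter, mem_univ, true_and] at hj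
        exact mem_erase.2 ⟨fun h => hj (h ▸ hua), not_not.1 fun h => hj (huS j h)⟩
      have := (hmin u hu0 hcon).trans (card_le_card h1)
      rw [card_erase_of_mem ha] at this
      have := card_pos.2 ⟨a, ha⟩
      omega) D S subset_rfl hD
    refine mem_biUnion.2 ⟨(S, R), mem_product.2 ⟨mem_filter.2 ⟨mem_univ _, show 3 ≤ S.card by omega, hsize⟩,
      mem_filter.2 ⟨mem_univ _, hR⟩⟩, ?_⟩
    simp only [mainEvent, mem_filter, mem_univ, true_and]
    exact ⟨v, hvS, hker, fun u h1 h2 => hspan u ⟨h1, h2⟩⟩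
  · left; right
    obtain ⟨T, e, hT, he⟩ := exists_pivots (D + 1) (kerOn ω S S) (by omega)
    have hTS : T ⊆ S := fun t ht => not_not.1 fun h => by
      have := (he t ht).2 t ht
      simp [(he t ht).1.1 t h] at this
    refine mem_biUnion.2 ⟨(S, T), mem_product.2 ⟨mem_univ _,
      mem_powersetCard.2 ⟨subset_univ _, hT⟩⟩, ?_⟩
    simp only [corankEvent, mem_filter, mem_univ, true_and]
    exact ⟨hTS, e, fun t ht => ⟨(he t ht).1.1, (he t ht).2, (he t ht).1.2⟩⟩

end Vale.Agent.P160
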